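import Vale.Agent.P042.W.Defs

/-! # P042 W/AsA (TASK; helper names end with _waa): the auxiliary polynomial, linear algebra.
`as_aux`: as `exists_aux` in K/StepA.lean (`natDegree_hasseDeriv_le`; `hasseDeriv n` is linear).
`as_ne`: write the sum over `range D ×ˢ range (u + 1)`; a nonzero term has the degree `deg e + Q (i k + j D)` with `deg e < Q`; these degrees are different (divide by `Q`; `i k + j D = i' k + j' D` gives `D ∣ (i - i') k`, so `i = i'`); `degree_sum_eq_of_disjoint`, or look at the coefficient of the largest degree (`exists_max_image`).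
`as_dvd`: modulo `P = (X - C c) ^ M` the sum is `Z = ∑ e i j * C (w.eval c ^ i * c ^ j)` (`sub_dvd_pow_sub_pow`, `Ideal.Quotient.mk` or `Dvd.dvd.mul_left`); `(taylor c Z).coeff n = (hasseDeriv n Z).eval c = 0` for `n < M` (`taylor_coeff`, evaluate `h n` at `c`), so `X ^ M ∣ taylor c Z` (`X_pow_dvd_iff`); apply `taylor (-c)` (`taylor_mul`, `taylor_taylor`, `comp`).
`mult_count`: `M • S.val ≤ H.roots` (`Multiset.le_iff_count`, `count_roots`, `le_rootMultiplicity_iff`), `card_roots'`; see K/StepD.lean. -/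

namespace Vale.Agent.P042.S

open Finset Polynomial

variable {F : Type} [Field F]

theorem as_aux {w : F[X]} {D u A M W : ℕ} (hw : w.natDegree ≤ W)
    (hc : M * (A + D * W + u + 1) < D * (u + 1) * (A + 1)) :
    ∃ e : ℕ → ℕ → F[X], (∀ i j, (e i j).natDegree ≤ A) ∧ (∃ i < D, ∃ j ≤ u, e i j ≠ 0) ∧
      ∀ n < M, ∑ i ∈ range D, ∑ j ∈ range (u + 1), hasseDeriv n (e i j) * w ^ i * X ^ j = 0 := by
  set B := A + D * W + u + 1 with hB
  let L : (Fin D × Fin (u + 1) → degreeLT F (A + 1)) →ₗ[F] (Fin M × Fin B → F) :=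
    LinearMap.pi fun k => (lcoeff F k.2).comp (∑ q : Fin D × Fin (u + 1),
      (LinearMap.mulRight F (w ^ (q.1 : ℕ) * X ^ (q.2 : ℕ))).comp ((hasseDeriv k.1).comp
        ((degreeLT F (A + 1)).subtype.comp (LinearMap.proj q))))
  have : Module.Finite F (degreeLT F (A + 1)) := (degreeLTEquiv F (A + 1)).symm.finiteDimensional
  have : Module.Free F (degreeLT F (A + 1)) := Module.Free.of_divisionRing _ _
  have hk : LinearMap.ker L ≠ ⊥ := LinearMap.ker_ne_bot_of_finrank_lt (by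
    rw [Module.finrank_pi, Module.finrank_pi_fintype, (degreeLTEquiv F (A + 1)).finrank_eq]
    simpa using hc)
  obtain ⟨x, hx, hx0⟩ := (Submodule.ne_bot_iff _).1 hk
  have hd : ∀ q, (x q : F[X]).natDegree ≤ A := fun q =>
    natDegree_le_of_degree_le (Order.le_of_lt_succ (mem_degreeLT.1 (x q).2))
  refine ⟨fun i j => if h : i < D ∧ j < u + 1 then x (⟨i, h.1⟩, ⟨j, h.2⟩) else 0, fun i j => ?_, ?_,
    fun n hn => ?_⟩
  · beta_reduce
    split_ifs
    · exact hd _
    · simp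
  · obtain ⟨q, hq⟩ := Function.ne_iff.1 hx0
    refine ⟨q.1, q.1.2, q.2, Nat.le_of_lt_succ q.2.2, ?_⟩
    beta_reduce
    rw [dif_pos ⟨q.1.2, q.2.2⟩]
    exact fun h => hq (Subtype.ext h)
  · have e : ∑ i ∈ range D, ∑ j ∈ range (u + 1), hasseDeriv n
        (if h : i < D ∧ j < u + 1 then (x (⟨i, h.1⟩, ⟨j, h.2⟩) : F[X]) else 0) * w ^ i * X ^ j =
        ∑ q : Fin D × Fin (u + 1), hasseDeriv n (x q : F[X]) * (w ^ (q.1 : ℕ) * X ^ (q.2 : ℕ)) := by
      rw [Fintype.sum_prod_type, sum_range]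
      refine sum_congr rfl fun i _ => ?_
      rw [sum_range]
      refine sum_congr rfl fun j _ => ?_
      rw [dif_pos ⟨i.2, j.2⟩, mul_assoc]
    rw [e]
    ext k
    rcases lt_or_ge k B with hkB | hkB
    · have h1 := congrFun (LinearMap.mem_ker.1 hx) (⟨n, hn⟩, ⟨k, hkB⟩)
      simpa [L, LinearMap.sum_apply, mul_assoc] using h1
    · refine coeff_eq_zero_of_natDegree_lt (lt_of_lt_of_le (Nat.lt_succ_of_le ?_) hkB)
      refine natDegree_sum_le_of_forall_le _ _ fun q _ => natDegree_mul_le.trans ?_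
      have h1 := (natDegree_hasseDeriv_le (x q : F[X]) n).trans ((Nat.sub_le _ _).trans (hd q))
      have h2 := natDegree_mul_le (p := w ^ (q.1 : ℕ)) (q := (X : F[X]) ^ (q.2 : ℕ))
      have h3 := natDegree_pow_le_of_le (q.1 : ℕ) hw
      have h4 := natDegree_X_pow_le (R := F) (q.2 : ℕ)
      have h6 := Nat.mul_le_mul_right W q.1.2.le
      have h7 := q.2.2
      omega

theorem as_ne {g : F[X]} {D k Q u : ℕ} (hD : D.Coprime k) (hk : 0 < k) (hg : g.natDegree = k * Q)
    {e : ℕ → ℕ → F[X]} (he : ∀ i j, (e i j).natDegree < Q) (h0 : ∃ i < D, ∃ j ≤ u, e i j ≠ 0) :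
    ∑ i ∈ range D, ∑ j ∈ range (u + 1), e i j * g ^ i * (X ^ (D * Q)) ^ j ≠ 0 := by
  obtain ⟨i₀, hi₀, j₀, hj₀, h1⟩ := h0
  have hQ : 0 < Q := lt_of_le_of_lt (Nat.zero_le _) (he 0 0)
  have hg0 : g ≠ 0 := by
    rintro rfl
    rw [natDegree_zero] at hg
    exact (Nat.mul_pos hk hQ).ne hg
  have hX : ∀ j : ℕ, ((X : F[X]) ^ (D * Q)) ^ j ≠ 0 := fun j =>
    pow_ne_zero _ (pow_ne_zero _ X_ne_zero)
  have hdeg : ∀ i j, e i j * g ^ i * (X ^ (D * Q)) ^ j ≠ 0 →
      (e i j * g ^ i * (X ^ (D * Q)) ^ j).natDegree / Q = i * k + D * j := by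
    intro i j h
    have h2 := left_ne_zero_of_mul h
    rw [natDegree_mul h2 (hX j), natDegree_mul (left_ne_zero_of_mul h2) (pow_ne_zero _ hg0),
      natDegree_pow, natDegree_pow, natDegree_X_pow, hg,
      show (e i j).natDegree + i * (k * Q) + j * (D * Q) =
        (e i j).natDegree + Q * (i * k + D * j) by ring,
      Nat.add_mul_div_left _ _ hQ, Nat.div_eq_of_lt (he i j), zero_add]
  rw [← sum_product']
  intro h
  have h2 := degree_sum_eq_of_disjoint
    (fun q : ℕ × ℕ => e q.1 q.2 * g ^ q.1 * (X ^ (D * Q)) ^ q.2) (range D ×ˢ range (u + 1)) (by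
      intro a ha b hb hab hd
      have h3 := congrArg (· / Q) (natDegree_eq_of_degree_eq hd)
      simp only [hdeg _ _ ha.2, hdeg _ _ hb.2] at h3
      have a1 := mem_range.1 (mem_product.1 ha.1).1
      have a2 := mem_range.1 (mem_product.1 hb.1).1
      have h4 : a.1 * k ≡ b.1 * k [MOD D] := by
        have h5 := congrArg (· % D) h3
        simp only [Nat.add_mul_mod_self_left] at h5
        exact h5
      have h5 : a.1 = b.1 := (Nat.ModEq.cancel_right_of_coprime hD h4).eq_of_lt_of_lt a1 a2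
      rw [h5] at h3
      exact hab (Prod.ext h5 (Nat.eq_of_mul_eq_mul_left (by omega) (Nat.add_left_cancel h3))))
  rw [h, degree_zero] at h2
  have h3 := Finset.le_sup (f := fun q : ℕ × ℕ => degree (e q.1 q.2 * g ^ q.1 * (X ^ (D * Q)) ^ q.2))
    (b := (i₀, j₀)) (mem_product.2 ⟨mem_range.2 hi₀, mem_range.2 (Nat.lt_succ_of_le hj₀)⟩)
  rw [← h2, le_bot_iff, degree_eq_bot] at h3
  exact mul_ne_zero (mul_ne_zero h1 (pow_ne_zero _ hg0)) (hX j₀) h3

theorem as_dvd {e : ℕ → ℕ → F[X]} {g w Y : F[X]} {c : F} {D u M : ℕ}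
    (hg : (X - C c) ^ M ∣ g - C (w.eval c)) (hY : (X - C c) ^ M ∣ Y - C c)
    (h : ∀ n < M, ∑ i ∈ range D, ∑ j ∈ range (u + 1), hasseDeriv n (e i j) * w ^ i * X ^ j = 0) :
    (X - C c) ^ M ∣ ∑ i ∈ range D, ∑ j ∈ range (u + 1), e i j * g ^ i * Y ^ j := by
  have h1 : (X - C c) ^ M ∣ ∑ i ∈ range D, ∑ j ∈ range (u + 1), e i j * g ^ i * Y ^ j -
      ∑ i ∈ range D, ∑ j ∈ range (u + 1), (w.eval c ^ i * c ^ j) • e i j := by
    rw [← sum_sub_distrib]
    refine dvd_sum fun i _ => ?_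
    rw [← sum_sub_distrib]
    refine dvd_sum fun j _ => ?_
    have e1 : e i j * g ^ i * Y ^ j - (w.eval c ^ i * c ^ j) • e i j =
        (g ^ i - C (w.eval c) ^ i) * (e i j * Y ^ j) +
          (Y ^ j - C c ^ j) * (e i j * C (w.eval c) ^ i) := by
      rw [smul_eq_C_mul, C_mul, C_pow, C_pow]
      ring
    rw [e1]
    exact dvd_add ((hg.trans (sub_dvd_pow_sub_pow _ _ i)).mul_right _)
      ((hY.trans (sub_dvd_pow_sub_pow _ _ j)).mul_right _)
  have h2 : (X - C c) ^ M ∣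
      ∑ i ∈ range D, ∑ j ∈ range (u + 1), (w.eval c ^ i * c ^ j) • e i j := by
    rw [X_sub_C_pow_dvd_iff, X_pow_dvd_iff]
    intro n hn
    have h3 := congrArg (eval c) (h n hn)
    rw [eval_zero] at h3
    rw [← taylor_apply, taylor_coeff, ← h3]
    simp only [map_sum, map_smul, eval_finsetSum, eval_smul, eval_mul, eval_pow, eval_X,
      smul_eq_mul]
    exact sum_congr rfl fun i _ => sum_congr rfl fun j _ => by ring
  simpa only [sub_add_cancel] using dvd_add h1 h2

theorem mult_count {H : F[X]} (hH : H ≠ 0) (S : Finset F) (M : ℕ)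
    (h : ∀ c ∈ S, (X - C c) ^ M ∣ H) : M * S.card ≤ H.natDegree := by
  classical
  calc M * S.card = ∑ _x ∈ S, M := by rw [sum_const, smul_eq_mul, mul_comm]
    _ ≤ ∑ x ∈ S, H.roots.count x := sum_le_sum fun x hx => by
        rw [count_roots]
        exact (le_rootMultiplicity_iff hH).2 (h x hx)
    _ ≤ ∑ x ∈ S ∪ H.roots.toFinset, H.roots.count x := sum_le_sum_of_subset subset_union_left
    _ = H.roots.card := Multiset.sum_count_eq_card fun a ha =>
        mem_union_right _ (Multiset.mem_toFinset.2 ha)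
    _ ≤ H.natDegree := card_roots' H

end Vale.Agent.P042.S
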