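import Vale.Agent.P042.W.Defs

/-! # P042 W/Basic (TASK; helper names end with _wba): basic facts.
`psiK_map`: `choose_spec`, injectivity of `algebraMap`.  `psiK_add`: `fix_mem`, `map_add`, `AddChar.map_add_eq_mul`.  `mem_Fx`, `card_Fx`: `FiniteField.X_pow_card_pow_sub_X_ne_zero`, `FiniteField.X_pow_card_pow_sub_X_natDegree_eq`, `galois_poly_separable`, `nodup_roots`, `Multiset.toFinset_card_of_nodup`, `IsAlgClosed.splits`, `Splits.natDegree_eq_card_roots`.
`aeval_frob`: `frobenius`, `ZMod.pow_card`, induction on `f` (`Polynomial.induction_on`, `add_pow_char`) or `map_expand_pow_char`.  `trK_fix`: `sum_pow_char`, `sum_range_succ`, `sum_range_succ'`.  `Sr_one`: `Fx p 1` is the image of `algebraMap` (`fix_mem`), `aeval_algebraMap_apply`.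
`mem_mon`: `monic_X_pow_add`, `degree_sum_fin_lt`; conversely `v i = g.coeff i` (`Monic.as_sum`, `Fin.sum_univ_eq_sum_range`, `C_mul_X_pow_eq_monomial`). -/

namespace Vale.Agent.P042.S

open Finset Polynomial

variable {p : ℕ} [Fact p.Prime]

theorem psiK_map (t : ZMod p) : psiK (algebraMap _ (KK p) t) = ZMod.stdAddChar t := by
  have h : ∃ t' : ZMod p, algebraMap _ (KK p) t' = algebraMap _ (KK p) t := ⟨t, rfl⟩
  rw [psiK, dif_pos h, (algebraMap (ZMod p) (KK p)).injective h.choose_spec]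

theorem psiK_add {y y' : KK p} (hy : y ^ p = y) (hy' : y' ^ p = y') :
    psiK (y + y') = psiK y * psiK y' := by
  obtain ⟨t, rfl⟩ := fix_mem hy
  obtain ⟨t', rfl⟩ := fix_mem hy'
  rw [← map_add, psiK_map, psiK_map, psiK_map, AddChar.map_add_eq_mul]

theorem mem_Fx {r : ℕ} (hr : 0 < r) {x : KK p} : x ∈ Fx p r ↔ x ^ p ^ r = x := by
  classical
  rw [Fx, Multiset.mem_toFinset, mem_roots (FiniteField.X_pow_card_pow_sub_X_ne_zero _ hr.ne'
    (Fact.out : p.Prime).one_lt), IsRoot, eval_sub, eval_pow, eval_X, sub_eq_zero]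

theorem card_Fx {r : ℕ} (hr : 0 < r) : (Fx p r).card = p ^ r := by
  classical
  rw [Fx, Multiset.toFinset_card_of_nodup
    (nodup_roots (galois_poly_separable p _ (dvd_pow_self p hr.ne'))),
    ← (IsAlgClosed.splits _).natDegree_eq_card_roots,
    FiniteField.X_pow_card_pow_sub_X_natDegree_eq _ hr.ne' (Fact.out : p.Prime).one_lt]

theorem aeval_frob (f : (ZMod p)[X]) (x : KK p) (i : ℕ) :
    aeval x f ^ p ^ i = aeval (x ^ p ^ i) f := by
  induction f using Polynomial.induction_on' with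
  | add a b ha hb => rw [map_add, map_add, add_pow_char_pow, ha, hb]
  | monomial k a =>
    rw [aeval_monomial, aeval_monomial, mul_pow, ← map_pow, ZMod.pow_card_pow, pow_right_comm]

theorem trK_fix (f : (ZMod p)[X]) {r : ℕ} {x : KK p} (hx : x ^ p ^ r = x) :
    trK r (aeval x f) ^ p = trK r (aeval x f) := by
  have h1 := sum_range_succ (fun i => aeval x f ^ p ^ i) r
  rw [sum_range_succ', aeval_frob f x r, hx, pow_zero, pow_one, add_left_inj] at h1
  rw [trK, sum_pow_char, ← h1]
  exact sum_congr rfl fun i _ => by rw [← pow_mul, pow_succ]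

theorem Sr_one (f : (ZMod p)[X]) : Sr f 1 = ∑ t : ZMod p, ZMod.stdAddChar (f.eval t) := by
  refine (sum_bij (fun t _ => algebraMap (ZMod p) (KK p) t) (fun t _ => ?_)
    (fun a _ b _ h => (algebraMap (ZMod p) (KK p)).injective h) (fun x hx => ?_) fun t _ => ?_).symm
  · rw [mem_Fx one_pos, ← map_pow, pow_one, ZMod.pow_card]
  · rw [mem_Fx one_pos, pow_one] at hx
    obtain ⟨t, ht⟩ := fix_mem hx
    exact ⟨t, mem_univ _, ht⟩
  · rw [trK, sum_range_one, pow_zero, pow_one, aeval_algebraMap_apply, coe_aeval_eq_eval, psiK_map]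

theorem mem_mon {d : ℕ} {g : (ZMod p)[X]} : g ∈ mon p d ↔ g.Monic ∧ g.natDegree = d := by
  classical
  simp only [mon, mem_image, mem_univ, true_and, ← C_mul_X_pow_eq_monomial]
  constructor
  · rintro ⟨v, rfl⟩
    have h := degree_sum_fin_lt v
    refine ⟨monic_X_pow_add h, ?_⟩
    rw [natDegree_add_eq_left_of_degree_lt (by rwa [degree_X_pow]), natDegree_X_pow]
  · rintro ⟨h, rfl⟩
    refine ⟨fun i => g.coeff i, ?_⟩
    rw [Fin.sum_univ_eq_sum_range (fun i => C (g.coeff i) * X ^ i)]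
    exact h.as_sum.symm

end Vale.Agent.P042.S
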