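import Vale.Agent.P042.W.AsA
import Vale.Agent.P042.W.Basic

/-! # P042 W/AsB (TASK; helper names end with _wab): counting points with a given trace.
`r = r' + 1`, `k = natDegree f`, `F = f.map (algebraMap _ _)`, `w₀ = ∑ i < r, F ^ p ^ i` has the degree `k p ^ r'` (`w_deg`: induction, `natDegree_add_eq_right_of_natDegree_lt`), `g = w₀ ^ p ^ r`, `Q = p ^ (2 r - 1)`, `A = Q - 1`, `D = p`, `W = k p ^ r'`, `M = p ^ r`, `u = p ^ r' + k + 1`, `w = C b - w₀`, `Y = X ^ (p * Q)`.
`as_aux` (`u < 2 p ^ r`), `as_ne`.  At a point `c`: `trK (2 r) y = trK r y + trK r y ^ p ^ r` (`sum_range_add`, `sum_pow_char_pow`), so `w.eval c = w₀.eval c ^ p ^ r` and `g - C (w.eval c) = (w₀ - C (w₀.eval c)) ^ p ^ r` (`sub_pow_char_pow`, `X_sub_C_dvd_sub_C_eval`, `pow_dvd_pow_of_dvd`);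
`Y - C c = (X - C c) ^ p ^ (2 r)`.  `as_dvd`, `mult_count`, degree at most `Q + p k Q + u p Q`; cancel `p ^ r`. -/

namespace Vale.Agent.P042.S

open Finset Polynomial

variable {p : ℕ} [Fact p.Prime]

theorem w_deg {F : (KK p)[X]} (h1 : 1 ≤ F.natDegree) (r : ℕ) :
    (∑ i ∈ range (r + 1), F ^ p ^ i).natDegree = F.natDegree * p ^ r := by
  induction r with
  | zero => simp
  | succ r ih =>
    have h2 : F.natDegree * p ^ r < F.natDegree * p ^ (r + 1) :=
      Nat.mul_lt_mul_of_pos_left (Nat.pow_lt_pow_right (Fact.out : p.Prime).one_lt r.lt_succ_self) h1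
    rw [sum_range_succ, natDegree_add_eq_right_of_natDegree_lt, natDegree_pow, mul_comm]
    rwa [ih, natDegree_pow, mul_comm (p ^ (r + 1))]

theorem tr_wab (r : ℕ) (y : KK p) : trK (2 * r) y = trK r y + trK r y ^ p ^ r := by
  unfold trK
  rw [two_mul, sum_range_add, sum_pow_char_pow]
  simp only [← pow_mul, ← pow_add, add_comm r]

theorem deg_wab {F : Type} [Field F] {e : ℕ → ℕ → F[X]} {g Y : F[X]} {D u A : ℕ}
    (he : ∀ i j, (e i j).natDegree ≤ A) :
    (∑ i ∈ range D, ∑ j ∈ range (u + 1), e i j * g ^ i * Y ^ j).natDegree ≤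
      A + D * g.natDegree + u * Y.natDegree := by
  refine natDegree_sum_le_of_forall_le _ _ fun i hi =>
    natDegree_sum_le_of_forall_le _ _ fun j hj => natDegree_mul_le.trans (add_le_add
      (natDegree_mul_le.trans (add_le_add (he i j) (natDegree_pow_le.trans ?_)))
      (natDegree_pow_le.trans ?_))
  · exact Nat.mul_le_mul_right _ (mem_range.1 hi).le
  · exact Nat.mul_le_mul_right _ (Nat.lt_succ_iff.1 (mem_range.1 hj))

open Classical in
theorem as_count {f : (ZMod p)[X]} (h1 : 1 ≤ f.natDegree) (h2 : f.natDegree < p) {r : ℕ}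
    (hr : 1 ≤ r) (b : KK p) :
    ((Fx p (2 * r)).filter fun x => trK (2 * r) (aeval x f) = b).card ≤
      p ^ (2 * r - 1) + (2 * f.natDegree + 2) * p ^ r := by
  obtain ⟨r, rfl⟩ : ∃ r', r = r' + 1 := ⟨r - 1, by omega⟩
  have hp : p.Prime := Fact.out
  have hp2 := hp.two_le
  obtain ⟨k, hk⟩ : ∃ k, k = f.natDegree := ⟨_, rfl⟩
  obtain ⟨P, hP⟩ : ∃ P, P = p ^ r := ⟨_, rfl⟩
  have hP0 : 0 < P := hP ▸ pow_pos hp.pos r
  have e1 : p ^ (r + 1) = p * P := by rw [hP, pow_succ']
  have e2 : p ^ (2 * (r + 1) - 1) = p * P * P := by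
    rw [hP, show 2 * (r + 1) - 1 = 1 + r + r by omega, pow_add, pow_add, pow_one]
  have e3 : p ^ (2 * (r + 1)) = p * (p * P * P) := by
    rw [← e2, ← pow_succ']
    rfl
  obtain ⟨A, hA⟩ : ∃ A, p * P * P = A + 1 := ⟨p * P * P - 1, by
    have : 0 < p * P * P := by positivity
    omega⟩
  obtain ⟨w, hw⟩ : ∃ w : (KK p)[X], w = ∑ i ∈ range (r + 1),
    f.map (algebraMap (ZMod p) (KK p)) ^ p ^ i := ⟨_, rfl⟩
  have hF : (f.map (algebraMap (ZMod p) (KK p))).natDegree = k := by rw [natDegree_map, hk]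
  rw [← hk] at h1 h2 ⊢
  have hd : w.natDegree = k * P := by rw [hw, w_deg (hF ▸ h1), hF, hP]
  have hev : ∀ c : KK p, w.eval c = trK (r + 1) (aeval c f) := fun c => by
    rw [hw, eval_finsetSum]
    simp only [eval_pow, eval_map_algebraMap, trK]
  have hu : P + k + 1 < 2 * (p * P) := by nlinarith
  obtain ⟨e, h3, h4, h5⟩ := as_aux (w := C b - w) (D := p) (u := P + k + 1) (A := A) (M := p * P)
    (W := k * P) ((natDegree_sub_le _ _).trans (by rw [natDegree_C, hd]; simp)) (by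
      have h6 : p * P * (P + k + 1) < p * P * (2 * (p * P)) :=
        Nat.mul_lt_mul_of_pos_left hu (by positivity)
      have h7 : A + p * (k * P) + (P + k + 1) + 1 = p * P * P + p * (k * P) + (P + k + 1) := by
        omega
      rw [h7, ← hA]
      nlinarith)
  have hg : (w ^ (p * P)).natDegree = k * (p * P * P) := by
    rw [natDegree_pow, hd]
    ring
  have h6 := as_ne (D := p) (Q := p * P * P) (u := P + k + 1)
    ((Nat.coprime_of_lt_prime (by omega) h2 hp)) h1 hg (e := e)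
    (fun i j => hA ▸ Nat.lt_succ_of_le (h3 i j)) h4
  have h7 := mult_count h6 ((Fx p (2 * (r + 1))).filter
    fun x => trK (2 * (r + 1)) (aeval x f) = b) (p * P) fun c hc => by
      obtain ⟨c1, c2⟩ := mem_filter.1 hc
      refine as_dvd ?_ ?_ h5
      · rw [eval_sub, eval_C, ← c2, tr_wab, hev, add_sub_cancel_left, ← hev, ← e1, C_pow,
          ← sub_pow_char_pow]
        exact pow_dvd_pow_of_dvd X_sub_C_dvd_sub_C_eval _
      · have c3 := (mem_Fx (by omega)).1 c1
        have c4 : (X ^ (p * (p * P * P)) - C c : (KK p)[X]) = (X - C c) ^ (p * (p * P * P)) := by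
          rw [← e3, sub_pow_char_pow, ← C_pow, c3]
        rw [c4]
        exact pow_dvd_pow _ (by nlinarith)
  have h8 := h7.trans (deg_wab h3)
  rw [hg, natDegree_X_pow] at h8
  rw [e1, e2]
  refine Nat.le_of_mul_le_mul_left (h8.trans ?_) (show 0 < p * P by positivity)
  have h9 : A ≤ p * P * (p * P) := by nlinarith
  nlinarith

end Vale.Agent.P042.S
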