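import Vale.Agent.P042.K.Stick

/-! # P042 W/Defs: the bound of Weil for additive character sums, definitions (FROZEN, owner helper37).
Overview: notes/P042W.md. -/

namespace Vale.Agent.P042.S

open Finset Polynomial

noncomputable section

/-- The algebraic closure of the prime field. -/
abbrev KK (p : ℕ) [Fact p.Prime] : Type := AlgebraicClosure (ZMod p)

variable {p : ℕ} [Fact p.Prime]

open Classical in
/-- The standard character on the prime field, extended by zero. -/
def psiK (y : KK p) : ℂ :=
  if h : ∃ t : ZMod p, algebraMap _ _ t = y then ZMod.stdAddChar h.choose else 0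

open Classical in
/-- The field with `p ^ r` elements inside the closure. -/
def Fx (p : ℕ) [Fact p.Prime] (r : ℕ) : Finset (KK p) := (X ^ p ^ r - X : (KK p)[X]).roots.toFinset

/-- The trace. -/
def trK (r : ℕ) (y : KK p) : KK p := ∑ i ∈ range r, y ^ p ^ i

/-- The character sum over the field with `p ^ r` elements. -/
def Sr (f : (ZMod p)[X]) (r : ℕ) : ℂ := ∑ x ∈ Fx p r, psiK (trK r (aeval x f))

open Classical in
/-- The monic polynomials of degree `d`. -/
def mon (p : ℕ) [Fact p.Prime] (d : ℕ) : Finset (ZMod p)[X] :=
  univ.image fun v : Fin d → ZMod p => X ^ d + ∑ i : Fin d, monomial i.val (v i)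

/-- The sum of the values of `f` at the roots of `g`. -/
def rs (f g : (ZMod p)[X]) : KK p := ((g.aroots (KK p)).map fun y => aeval y f).sum

/-- The coefficients of the generating series. -/
def cL (f : (ZMod p)[X]) (d : ℕ) : ℂ := ∑ g ∈ mon p d, psiK (rs f g)

/-- The first `r` conjugates. -/
def orb (r : ℕ) (x : KK p) : Multiset (KK p) := (Multiset.range r).map fun i => x ^ p ^ i

end

end Vale.Agent.P042.S
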