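import Vale.Agent.P042.W.Basic

/-! # P042 W/Frob (TASK; helper names end with _wfr): roots and the Frobenius map.
`roots_frob`: `G = g.map (algebraMap _ _)` satisfies `G.map φ = G` for `φ = frobenius (KK p) p` (`Polynomial.map_map`, ring maps out of `ZMod p` are equal: `RingHom.ext_zmod`), and `(G.map φ).roots = G.roots.map φ` (`roots_map`, `Splits.roots_map` or `IsAlgClosed.roots_eq_map...`).
`count_frob`: `Multiset.count_map_eq_count'` with `frobenius_inj`.  `rs_fix`: `map_multiset_sum φ`, `aeval_frob` with `i = 1`.  `rs_mul`: `aroots_mul`.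
`orb_poly`: `N' = ((orb r x).map fun a => X - C a).prod` is fixed by `φ` since `(orb r x).map φ = orb r x` (`Multiset.range_succ`, shift of the range, `x ^ p ^ r = x`), so all coefficients are in the range of `algebraMap` (`fix_mem`);
`lifts_iff_coeff_lifts`, `lifts_and_natDegree_eq_and_monic`, `roots_multiset_prod_X_sub_C`. -/

namespace Vale.Agent.P042.S

open Finset Polynomial

variable {p : ℕ} [Fact p.Prime]

theorem roots_frob (g : (ZMod p)[X]) : (g.aroots (KK p)).map (fun y => y ^ p) = g.aroots (KK p) := by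
  have h1 : (g.map (algebraMap (ZMod p) (KK p))).map (frobenius (KK p) p) =
      g.map (algebraMap (ZMod p) (KK p)) := by
    rw [Polynomial.map_map, RingHom.ext_zmod ((frobenius (KK p) p).comp _) (algebraMap _ _)]
  have h2 := (IsAlgClosed.splits (g.map (algebraMap (ZMod p) (KK p)))).roots_map
    (frobenius (KK p) p)
  rw [h1] at h2
  exact h2.symm

open Classical in
theorem count_frob (g : (ZMod p)[X]) (y : KK p) :
    (g.aroots (KK p)).count (y ^ p) = (g.aroots (KK p)).count y := by
  have h := Multiset.count_map_eq_count' (fun y : KK p => y ^ p) (g.aroots (KK p))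
    (frobenius_inj (KK p) p) y
  rwa [roots_frob] at h

theorem rs_fix (f g : (ZMod p)[X]) : rs f g ^ p = rs f g := by
  have h1 := map_multiset_sum (frobenius (KK p) p) ((g.aroots (KK p)).map fun y => aeval y f)
  rw [frobenius_def] at h1
  rw [rs, h1]
  conv_rhs => rw [← roots_frob g]
  rw [Multiset.map_map, Multiset.map_map]
  refine congrArg _ (Multiset.map_congr rfl fun y _ => ?_)
  have h2 := aeval_frob f y 1
  rw [pow_one] at h2
  exact h2

theorem rs_mul (f : (ZMod p)[X]) {g g' : (ZMod p)[X]} (hg : g ≠ 0) (hg' : g' ≠ 0) :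
    rs f (g * g') = rs f g + rs f g' := by
  rw [rs, aroots_mul (mul_ne_zero hg hg'), Multiset.map_add, Multiset.sum_add, rs, rs]

theorem orb_succ_wfr (x : KK p) (r : ℕ) :
    x ::ₘ (orb r x).map (fun y => y ^ p) = x ^ p ^ r ::ₘ orb r x := by
  induction r with
  | zero => simp [orb]
  | succ r ih =>
    have e : orb (r + 1) x = x ^ p ^ r ::ₘ orb r x := by
      rw [orb, Multiset.range_succ, Multiset.map_cons, orb]
    rw [e, Multiset.map_cons, Multiset.cons_swap, ih, ← pow_mul, ← pow_succ]

theorem orb_map_wfr {r : ℕ} {x : KK p} (hx : x ^ p ^ r = x) :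
    (orb r x).map (fun y => y ^ p) = orb r x := by
  have h := orb_succ_wfr x r
  rw [hx] at h
  exact (Multiset.cons_inj_right x).1 h

theorem orb_poly {r : ℕ} {x : KK p} (hx : x ^ p ^ r = x) :
    ∃ N : (ZMod p)[X], N.Monic ∧ N.natDegree = r ∧ N.aroots (KK p) = orb r x := by
  have h1 : ((orb r x).map fun a => X - C a).prod.map (frobenius (KK p) p) =
      ((orb r x).map fun a => X - C a).prod := by
    conv_rhs => rw [← orb_map_wfr hx]
    rw [Polynomial.map_multiset_prod, Multiset.map_map, Multiset.map_map]
    refine congrArg _ (Multiset.map_congr rfl fun y _ => ?_)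
    simp [frobenius_def]
  have h2 : ((orb r x).map fun a => X - C a).prod ∈ lifts (algebraMap (ZMod p) (KK p)) := by
    refine (lifts_iff_coeff_lifts _).2 fun n => ?_
    have h3 := congrArg (fun q => coeff q n) h1
    simp only [coeff_map, frobenius_def] at h3
    exact fix_mem h3
  obtain ⟨N, h3, h4, h5⟩ := lifts_and_natDegree_eq_and_monic h2
    (monic_multiset_prod_of_monic _ _ fun a _ => monic_X_sub_C a)
  refine ⟨N, h5, ?_, ?_⟩
  · rw [h4, natDegree_multiset_prod_X_sub_C_eq_card, orb, Multiset.card_map, Multiset.card_range]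
  · rw [aroots_def, h3, roots_multiset_prod_X_sub_C]

end Vale.Agent.P042.S
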