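import Vale.Agent.P042.W.Defs

/-! # P042 W/Newton (TASK; helper names end with _wne): identities of Newton, growth of power sums.
`newton`: in power series `X * G' = -G * P` with `P = mk fun n => if n = 0 then 0 else power sum`, by `Multiset.induction_on` (`(1 - C a * X) * mk (a ^ ·) = 1`); or directly: induction on `s` with `coeff (n + 1) ((1 - C a * X) * G) = G (n + 1) - a G n` and the telescoping sum `∑ j < n, a ^ (j + 1) * G' (n - 1 - j) = a G (n - 1)`.
`rev_coeff`: the first product is the `reverse` (or `reflect`) of the second (`reverse_mul_of_domain`, `coeff_reverse`, `revAt_le`), or induction.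
`fac_one`: `s = L.roots.map (·⁻¹)`, `0` is not a root, `C_leadingCoeff_mul_prod_multiset_X_sub_C` (`IsAlgClosed.splits`); `X - C ρ = C (-ρ) * (1 - C ρ⁻¹ * X)`; compare the constant terms.
`pow_bound`: for a polynomial `Q`, `∑ ω ∈ s, Q(ω) ω ^ r = ∑ i, Q.coeff i * (power sum (r + i))` has norm at most `C' B ^ r`; take `Q = ∏ ω' ∈ s.toFinset.erase ω, (X - C ω')`: the sum is `count ω * Q(ω) * ω ^ r` with a nonzero factor; if `‖ω‖ > B` then `(‖ω‖ / B) ^ r` is unbounded (`tendsto_pow_atTop_atTop_of_one_lt`). -/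

namespace Vale.Agent.P042.S

open Finset Polynomial

theorem zero_wne {E : Type} [CommRing E] (a : E) (G : E[X]) :
    ((1 - C a * X) * G).coeff 0 = G.coeff 0 := by
  simp

theorem succ_wne {E : Type} [CommRing E] (a : E) (G : E[X]) (n : ℕ) :
    ((1 - C a * X) * G).coeff (n + 1) = G.coeff (n + 1) - a * G.coeff n := by
  rw [sub_mul, one_mul, coeff_sub, mul_assoc, coeff_C_mul, coeff_X_mul]

theorem tel_wne {E : Type} [CommRing E] (a : E) (G : E[X]) (n : ℕ) :
    ∑ j ∈ range (n + 1), a ^ (j + 1) * ((1 - C a * X) * G).coeff (n - j) = a * G.coeff n := by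
  induction n with
  | zero => simp
  | succ n ih =>
    rw [sum_range_succ', Nat.sub_zero, succ_wne]
    simp only [Nat.add_sub_add_right, pow_succ' a (_ + 1), mul_assoc a, ← mul_sum, ih]
    ring

theorem rev_wne {E : Type} [Field E] (s : Multiset E) :
    (s.map fun a => X - C a).prod.reverse = (s.map fun a => 1 - C a * X).prod := by
  induction s using Multiset.induction_on with
  | empty => simpa using reverse_C (1 : E)
  | cons a s ih =>
    rw [Multiset.map_cons, Multiset.prod_cons, Multiset.map_cons, Multiset.prod_cons,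
      reverse_mul_of_domain, ih, reverse, natDegree_X_sub_C, reflect_sub, reflect_one_X, reflect_C,
      pow_one]

theorem newton {E : Type} [CommRing E] (s : Multiset E) (n : ℕ) :
    (n : E) * (s.map fun a => 1 - C a * X).prod.coeff n =
      -∑ j ∈ range n, (s.map fun a => a ^ (j + 1)).sum *
        (s.map fun a => 1 - C a * X).prod.coeff (n - 1 - j) := by
  induction s using Multiset.induction_on generalizing n with
  | empty =>
    cases n with
    | zero => simp
    | succ n => simp [coeff_one]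
  | cons a s ih =>
    cases n with
    | zero => simp
    | succ n =>
      have h1 := ih n
      have h2 := ih (n + 1)
      have h3 := tel_wne a (s.map fun a => 1 - C a * X).prod n
      simp only [Multiset.map_cons, Multiset.prod_cons, Multiset.sum_cons, add_mul,
        sum_add_distrib, Nat.add_sub_cancel] at h2 ⊢
      generalize (s.map fun a => 1 - C a * X).prod = G at h1 h2 h3 ⊢
      have h4 : ∑ j ∈ range (n + 1), (s.map fun a => a ^ (j + 1)).sum *
          ((1 - C a * X) * G).coeff (n - j) =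
          ∑ j ∈ range (n + 1), (s.map fun a => a ^ (j + 1)).sum * G.coeff (n - j) -
            a * ∑ j ∈ range n, (s.map fun a => a ^ (j + 1)).sum * G.coeff (n - 1 - j) := by
        rw [sum_range_succ, sum_range_succ, Nat.sub_self, zero_wne, add_sub_right_comm, mul_sum,
          ← sum_sub_distrib]
        refine congrArg (· + _) (sum_congr rfl fun j hj => ?_)
        have e : n - j = n - 1 - j + 1 := by have := mem_range.1 hj; omega
        rw [e, succ_wne]
        ring
      rw [h3, h4, succ_wne]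
      push_cast at h2 ⊢
      linear_combination h2 - a * h1

theorem rev_coeff {E : Type} [Field E] (s : Multiset E) {n : ℕ} (hn : n ≤ s.card) :
    (s.map fun a => 1 - C a * X).prod.coeff n = (s.map fun a => X - C a).prod.coeff (s.card - n) := by
  rw [← rev_wne, coeff_reverse, natDegree_multiset_prod_X_sub_C_eq_card, revAt_le hn]

theorem fac_one {L : ℂ[X]} (h : L.coeff 0 = 1) :
    ∃ s : Multiset ℂ, s.card ≤ L.natDegree ∧ L = (s.map fun a => 1 - C a * X).prod := by
  have h0 : L.natTrailingDegree = 0 := natTrailingDegree_eq_zero.2 (Or.inr (by simp [h]))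
  have h1 : L.reverse.leadingCoeff = 1 := by rw [reverse_leadingCoeff, trailingCoeff, h0, h]
  have h2 := (IsAlgClosed.splits L.reverse).eq_prod_roots
  rw [h1, C_1, one_mul] at h2
  refine ⟨L.reverse.roots, (card_roots' _).trans (reverse_natDegree_le L), ?_⟩
  rw [← rev_wne, ← h2, reverse, reverse_natDegree, h0, Nat.sub_zero, reverse, reflect_reflect]

theorem pow_bound (s : Multiset ℂ) {B C₀ : ℝ} (hB : 0 < B)
    (h : ∀ r : ℕ, 1 ≤ r → ‖(s.map fun a => a ^ r).sum‖ ≤ C₀ * B ^ r) : ∀ ω ∈ s, ‖ω‖ ≤ B := by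
  classical
  intro ω hω
  by_contra hn
  obtain ⟨Q, hQ, hQ'⟩ : ∃ Q : ℂ[X], Q.eval ω ≠ 0 ∧ ∀ a ∈ s.toFinset, a ≠ ω → Q.eval a = 0 := by
    refine ⟨∏ a ∈ s.toFinset.erase ω, (X - C a), ?_, fun a ha ha' => ?_⟩
    · rw [eval_prod]
      exact prod_ne_zero_iff.2 fun a ha => by simpa [sub_eq_zero] using (ne_of_mem_erase ha).symm
    · rw [eval_prod]
      exact prod_eq_zero (mem_erase.2 ⟨ha', ha⟩) (by simp)
  have hc : 0 < ‖(s.count ω : ℂ) * Q.eval ω‖ :=
    norm_pos_iff.2 (mul_ne_zero (Nat.cast_ne_zero.2 (Multiset.count_ne_zero.2 hω)) hQ)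
  have key : ∀ r : ℕ, 1 ≤ r → (‖ω‖ / B) ^ r ≤ (∑ i ∈ range (Q.natDegree + 1),
      ‖Q.coeff i‖ * (C₀ * B ^ i)) / ‖(s.count ω : ℂ) * Q.eval ω‖ := by
    intro r hr
    have e1 : (s.map fun a => Q.eval a * a ^ r).sum = s.count ω * Q.eval ω * ω ^ r := by
      rw [sum_multiset_map_count, sum_eq_single_of_mem ω (Multiset.mem_toFinset.2 hω)
        fun a ha ha' => by rw [hQ' a ha ha', zero_mul, smul_zero], nsmul_eq_mul, mul_assoc]
    have e2 : (s.map fun a => Q.eval a * a ^ r).sum =
        ∑ i ∈ range (Q.natDegree + 1), Q.coeff i * (s.map fun a => a ^ (i + r)).sum := by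
      simp only [eval_eq_sum_range, sum_mul, mul_assoc, ← pow_add, Multiset.sum_map_sum,
        Multiset.sum_map_mul_left]
    have h1 : ‖(s.count ω : ℂ) * Q.eval ω * ω ^ r‖ ≤
        (∑ i ∈ range (Q.natDegree + 1), ‖Q.coeff i‖ * (C₀ * B ^ i)) * B ^ r := by
      rw [← e1, e2, sum_mul]
      refine norm_sum_le_of_le _ fun i _ => ?_
      rw [norm_mul, mul_assoc, mul_assoc, ← pow_add]
      exact mul_le_mul_of_nonneg_left (h _ (by omega)) (norm_nonneg _)
    rw [norm_mul, norm_pow] at h1
    rw [div_pow, div_le_div_iff₀ (by positivity) hc]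
    linarith
  obtain ⟨r, h1, h2⟩ := (((tendsto_pow_atTop_atTop_of_one_lt ((one_lt_div hB).2
    (not_le.1 hn))).eventually_gt_atTop _).and (Filter.eventually_ge_atTop 1)).exists
  exact (key r h2).not_gt h1

end Vale.Agent.P042.S
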