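import Vale.Agent.P042.W.Basic

/-! # P042 W/Orb (TASK; helper names end with _wor): counting orbits.
`φ y = y ^ p` is injective, `φ^[i] x = x ^ p ^ i`.  If `count x M = 0` no `r ≥ 1` works (`x ∈ orb r x`).  Otherwise all `φ^[i] x` lie in `M`, so `x` is periodic (pigeonhole and injectivity; `Function.mem_periodicPts`, `Finite.exists_ne_map_eq_of_infinite` or `Set.infinite_of_injective_forall_mem`); `e = Function.minimalPeriod φ x > 0`,
`x ^ p ^ r = x ↔ e ∣ r` (`isPeriodicPt_iff_minimalPeriod_dvd`), `orb (e t) x = t • orb e x` (induction on `t`, `Multiset.range_add`), `orb e x` has no duplicates (`iterate_injOn_Iio_minimalPeriod`), so `t • orb e x ≤ M ↔ t ≤ count x M` (`Multiset.le_iff_count`);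
the set is the image of `Icc 1 (count x M)` under `t ↦ e t`, and `e t = card (orb (e t) x) ≤ card M ≤ d`. -/

namespace Vale.Agent.P042.S

open Finset Polynomial

variable {p : ℕ} [Fact p.Prime]

theorem per_wor {α : Type} [DecidableEq α] {φ : α → α} (hφ : Function.Injective φ)
    {M : Multiset α} {x : α} (h : ∀ i, φ^[i] x ∈ M) : x ∈ Function.periodicPts φ := by
  have h1 : ¬ Function.Injective fun i => φ^[i] x := fun hi =>
    Set.infinite_of_injective_forall_mem (s := (M.toFinset : Set α)) hi
      (fun i => by simpa using h i) M.toFinset.finite_toSet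
  have key : ∀ i j, i < j → φ^[i] x = φ^[j] x → x ∈ Function.periodicPts φ := by
    intro i j hij e
    obtain ⟨k, rfl⟩ := Nat.exists_eq_add_of_lt hij
    rw [add_assoc, Function.iterate_add_apply] at e
    exact Function.mk_mem_periodicPts (Nat.succ_pos k) ((hφ.iterate i) e).symm
  by_contra hn
  refine h1 fun i j e => ?_
  rcases lt_trichotomy i j with h2 | h2 | h2
  · exact absurd (key i j h2 e) hn
  · exact h2
  · exact absurd (key j i h2 e.symm) hn

theorem mul_wor {α : Type} {φ : α → α} {x : α} {e : ℕ} (he : φ^[e] x = x) (t : ℕ) :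
    (Multiset.range (e * t)).map (fun i => φ^[i] x) =
      t • (Multiset.range e).map fun i => φ^[i] x := by
  induction t with
  | zero => simp
  | succ t ih =>
    have h1 : φ^[e * t] x = x := Function.IsPeriodicPt.mul_const he t
    rw [Nat.mul_succ, Multiset.range_add, Multiset.map_add, ih, succ_nsmul, Multiset.map_map]
    congr 1
    refine Multiset.map_congr rfl fun i _ => ?_
    simp only [Function.comp_apply]
    rw [add_comm, Function.iterate_add_apply, h1]

theorem gen_wor {α : Type} [DecidableEq α] {φ : α → α} (hφ : Function.Injective φ)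
    {M : Multiset α} (hM : ∀ y, M.count (φ y) = M.count y) (x : α) {d : ℕ} (hd : M.card ≤ d)
    {S : Finset ℕ} (hS : ∀ r, r ∈ S ↔ (1 ≤ r ∧ r ≤ d) ∧ φ^[r] x = x ∧
      (Multiset.range r).map (fun i => φ^[i] x) ≤ M) : S.card = M.count x := by
  have hc : ∀ i, M.count (φ^[i] x) = M.count x := by
    intro i
    induction i with
    | zero => rfl
    | succ i ih => rw [Function.iterate_succ_apply', hM, ih]
  by_cases h0 : x ∈ M
  swap
  · rw [Multiset.count_eq_zero.2 h0, card_eq_zero, eq_empty_iff_forall_notMem]
    intro r hr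
    obtain ⟨⟨h1, -⟩, -, h2⟩ := (hS r).1 hr
    exact h0 (Multiset.mem_of_le h2 (Multiset.mem_map.2 ⟨0, Multiset.mem_range.2 h1, rfl⟩))
  have hx : x ∈ Function.periodicPts φ := per_wor hφ (M := M) fun i => by
    rw [← Multiset.count_pos, hc, Multiset.count_pos]
    exact h0
  have he0 := Function.minimalPeriod_pos_of_mem_periodicPts hx
  have he1 : φ^[Function.minimalPeriod φ x] x = x := Function.isPeriodicPt_minimalPeriod φ x
  have he2 : ∀ r, φ^[r] x = x → Function.minimalPeriod φ x ∣ r := fun r hr =>
    Function.isPeriodicPt_iff_minimalPeriod_dvd.1 hr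
  have he3 : ((Multiset.range (Function.minimalPeriod φ x)).map fun i => φ^[i] x).Nodup :=
    (Multiset.nodup_range _).map_on fun i hi j hj h =>
      Function.iterate_injOn_Iio_minimalPeriod (Multiset.mem_range.1 hi) (Multiset.mem_range.1 hj) h
  generalize Function.minimalPeriod φ x = e at he0 he1 he2 he3
  have key : ∀ t, (Multiset.range (e * t)).map (fun i => φ^[i] x) ≤ M ↔ t ≤ M.count x := by
    intro t
    rw [mul_wor he1, Multiset.le_iff_count]
    constructor
    · intro h
      have h1 := h x
      rwa [Multiset.count_nsmul, Multiset.count_eq_one_of_mem (a := x) he3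
        (Multiset.mem_map.2 ⟨0, Multiset.mem_range.2 he0, rfl⟩), mul_one] at h1
    · intro h y
      rw [Multiset.count_nsmul]
      by_cases hy : y ∈ (Multiset.range e).map fun i => φ^[i] x
      · rw [Multiset.count_eq_one_of_mem he3 hy, mul_one]
        obtain ⟨i, -, rfl⟩ := Multiset.mem_map.1 hy
        rwa [hc]
      · rw [Multiset.count_eq_zero.2 hy, mul_zero]
        exact Nat.zero_le _
  have hSe : S = (Icc 1 (M.count x)).image fun t => e * t := by
    ext r
    rw [hS, mem_image]
    constructor
    · rintro ⟨⟨h1, -⟩, h2, h3⟩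
      obtain ⟨t, rfl⟩ := he2 r h2
      refine ⟨t, mem_Icc.2 ⟨Nat.pos_of_ne_zero ?_, (key t).1 h3⟩, rfl⟩
      rintro rfl
      simp at h1
    · rintro ⟨t, ht, rfl⟩
      obtain ⟨h1, h2⟩ := mem_Icc.1 ht
      have h3 := (key t).2 h2
      refine ⟨⟨Nat.mul_pos he0 h1, ?_⟩, Function.IsPeriodicPt.mul_const he1 t, h3⟩
      have h4 := Multiset.card_le_card h3
      rw [Multiset.card_map, Multiset.card_range] at h4
      exact h4.trans hd
  rw [hSe, card_image_of_injective _ fun a b h => Nat.eq_of_mul_eq_mul_left he0 h, Nat.card_Icc,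
    Nat.add_sub_cancel]

open Classical in
theorem orb_count {M : Multiset (KK p)} (hM : ∀ y, M.count (y ^ p) = M.count y) (x : KK p) {d : ℕ}
    (hd : M.card ≤ d) :
    ((Icc 1 d).filter fun r => x ^ p ^ r = x ∧ orb r x ≤ M).card = M.count x := by
  have hit : ∀ i, (fun y : KK p => y ^ p)^[i] x = x ^ p ^ i := by
    intro i
    induction i with
    | zero => simp
    | succ i ih => rw [Function.iterate_succ_apply', ih, ← pow_mul, pow_succ]
  refine gen_wor (φ := fun y : KK p => y ^ p) (frobenius_inj (KK p) p) hM x hd fun r => ?_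
  rw [mem_filter, mem_Icc]
  simp only [hit, orb]

end Vale.Agent.P042.S
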