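import Vale.Agent.P042.W.Frob
import Vale.Agent.P042.W.Orb

/-! # P042 W/Rec (TASK; helper names end with _wre): the logarithmic derivative of the generating series.
`rec_fib`: `N` from `orb_poly`; `g' ↦ N * g'` is a bijection from `mon p (d - r)` onto the filtered set (`orb r x ≤ aroots g ↔ N ∣ g`: `Multiset.prod_X_sub_C_dvd_iff_le_roots`, `map_dvd_map'`, `roots.le_of_dvd`; inverse `g /ₘ N`, or `sum_bij`); `rs_mul`, `psiK_add`, `rs_fix`, `rs f N = trK r (aeval x f)` (`aeval_frob`).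
`cL_rec`: for `g ∈ mon p d`, `d = card (aroots g) = ∑ x ∈ (aroots g).toFinset, count x = ∑ r ∈ Icc 1 d, #{x ∈ Fx p r | orb r x ≤ aroots g}` (`orb_count`, `count_frob`, `card_filter`, `sum_comm`, `mem_Fx`, `x ∈ orb r x`); exchange the sums, `rec_fib`, reindex `r = j + 1` (`sum_Ioc_eq..`, `range_eq_Ico`, `sum_Ico_add'`). -/

namespace Vale.Agent.P042.S

open Finset Polynomial

variable {p : ℕ} [Fact p.Prime]

open Classical in
theorem rec_fib (f : (ZMod p)[X]) {r d : ℕ} (hr : r ≤ d) {x : KK p} (hx : x ^ p ^ r = x) :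
    ∑ g ∈ (mon p d).filter (fun g => orb r x ≤ g.aroots (KK p)), psiK (rs f g) =
      psiK (trK r (aeval x f)) * cL f (d - r) := by
  obtain ⟨N, hN, hd, hr'⟩ := orb_poly hx
  have e1 : rs f N = trK r (aeval x f) := by
    rw [rs, hr', orb, Multiset.map_map, trK]
    simp only [aeval_frob]
    rfl
  rw [cL, mul_sum]
  symm
  refine sum_bij (fun g' _ => N * g') (fun g' hg' => ?_) (fun a _ b _ h => ?_) (fun g hg => ?_)
    (fun g' hg' => ?_)
  · obtain ⟨h1, h2⟩ := mem_mon.1 hg'
    refine mem_filter.2 ⟨mem_mon.2 ⟨hN.mul h1, ?_⟩, ?_⟩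
    · rw [hN.natDegree_mul h1, hd, h2]; omega
    · rw [aroots_mul (hN.mul h1).ne_zero, hr']
      exact Multiset.le_add_right _ _
  · exact mul_left_cancel₀ hN.ne_zero h
  · obtain ⟨h1, h2⟩ := mem_filter.1 hg
    obtain ⟨h3, h4⟩ := mem_mon.1 h1
    rw [← hr'] at h2
    have h5 : N.map (algebraMap _ (KK p)) ∣ g.map (algebraMap _ (KK p)) :=
      (IsAlgClosed.dvd_iff_roots_le_roots (hN.map _).ne_zero (h3.map _).ne_zero).2 h2
    obtain ⟨c, rfl⟩ := (map_dvd_map' _).1 h5
    have h6 : c.Monic := hN.of_mul_monic_left h3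
    rw [hN.natDegree_mul h6, hd] at h4
    exact ⟨c, mem_mon.2 ⟨h6, by omega⟩, rfl⟩
  · rw [rs_mul f hN.ne_zero (mem_mon.1 hg').1.ne_zero, psiK_add (rs_fix f N) (rs_fix f g'), e1]

open Classical in
theorem deg_wre {d : ℕ} {g : (ZMod p)[X]} (hg : g ∈ mon p d) :
    d = ∑ r ∈ Icc 1 d, ((Fx p r).filter fun x => orb r x ≤ g.aroots (KK p)).card := by
  have hc : (g.aroots (KK p)).card = d := by
    rw [IsAlgClosed.card_aroots_eq_natDegree, (mem_mon.1 hg).2]
  have hM := count_frob g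
  generalize g.aroots (KK p) = M at hc hM
  calc d = ∑ x ∈ M.toFinset, M.count x := by rw [Multiset.toFinset_sum_count_eq, hc]
    _ = ∑ x ∈ M.toFinset, ∑ r ∈ Icc 1 d, if x ^ p ^ r = x ∧ orb r x ≤ M then 1 else 0 := by
        refine sum_congr rfl fun x _ => ?_
        rw [← orb_count hM x hc.le, card_filter]
    _ = _ := by
        rw [sum_comm]
        refine sum_congr rfl fun r hr => ?_
        have h1 : 0 < r := (mem_Icc.1 hr).1
        rw [← card_filter]
        refine congrArg _ (Finset.ext fun x => ?_)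
        rw [mem_filter, mem_filter, mem_Fx h1, Multiset.mem_toFinset]
        refine ⟨fun h => h.2, fun h => ⟨Multiset.mem_of_le h.2 ?_, h⟩⟩
        exact Multiset.mem_map.2 ⟨0, Multiset.mem_range.2 h1, by simp⟩

theorem cL_rec (f : (ZMod p)[X]) (d : ℕ) :
    (d : ℂ) * cL f d = ∑ j ∈ range d, Sr f (j + 1) * cL f (d - 1 - j) := by
  classical
  have h1 : (d : ℂ) * cL f d = ∑ r ∈ Icc 1 d, Sr f r * cL f (d - r) := by
    rw [cL, mul_sum]
    calc ∑ g ∈ mon p d, (d : ℂ) * psiK (rs f g)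
        = ∑ g ∈ mon p d, ∑ r ∈ Icc 1 d, ∑ x ∈ Fx p r,
            if orb r x ≤ g.aroots (KK p) then psiK (rs f g) else 0 := by
          refine sum_congr rfl fun g hg => ?_
          conv_lhs => rw [deg_wre hg]
          rw [Nat.cast_sum, sum_mul]
          refine sum_congr rfl fun r _ => ?_
          rw [← sum_filter, sum_const, nsmul_eq_mul]
      _ = ∑ r ∈ Icc 1 d, ∑ x ∈ Fx p r, ∑ g ∈ mon p d,
            if orb r x ≤ g.aroots (KK p) then psiK (rs f g) else 0 := by
          rw [sum_comm]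
          exact sum_congr rfl fun r _ => sum_comm
      _ = _ := by
          refine sum_congr rfl fun r hr => ?_
          obtain ⟨a1, a2⟩ := mem_Icc.1 hr
          rw [Sr, sum_mul]
          refine sum_congr rfl fun x hx => ?_
          rw [← sum_filter]
          exact rec_fib f a2 ((mem_Fx a1).1 hx)
  rw [h1, range_eq_Ico, ← Ico_add_one_right_eq_Icc]
  have h2 := sum_Ico_add' (fun r => Sr f r * cL f (d - r)) 0 d 1
  rw [zero_add] at h2
  rw [← h2]
  refine sum_congr rfl fun j _ => ?_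
  rw [show d - (j + 1) = d - 1 - j by omega]

end Vale.Agent.P042.S
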