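import Vale.Agent.P042.W.Frob
import Vale.Agent.P042.W.Newton

/-! # P042 W/Van (TASK; helper names end with _wva): the generating series is a polynomial.
`psum_shift`: `s`, `s'` the roots of `g`, `g' = g + C t * X ^ (d - k)` (monic of degree `d`, `card = d`, `map g = ∏ (X - C a)`: `IsAlgClosed.splits`, `prod_multiset_X_sub_C_of_monic_of_roots_card_eq`); by `rev_coeff` the reversed coefficients `G n = g.coeff (d - n)` agree for `n < k`, `G' k = G k + t`, `G 0 = 1`;
strong induction on `j` with `newton` (isolate the term `j = n - 1`).  `rs_shift`: `rs f g = ∑ j ≤ k, f.coeff j * (power sum j)` (`aeval_eq_sum_range`, `Multiset.sum_map_sum`-like exchange by induction).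
`cL_van`: `g ↦ g + C t * X ^ (d - k)` is a bijection of `mon p d` (`mem_mon`, `sum_nbij'`), so `cL = cL * ψ (-k lead t)` (`psiK_add`, `rs_fix`, `psiK_map`); take `t` with `-k lead t = 1`, `ψ 1 ≠ 1` (`ZMod.isPrimitive_stdAddChar`, `IsPrimitive.zmod_char_eq_one_iff`). -/

namespace Vale.Agent.P042.S

open Finset Polynomial

variable {p : ℕ} [Fact p.Prime]

theorem mon_wva {g : (ZMod p)[X]} {d k : ℕ} (hg : g.Monic) (hd : g.natDegree = d) (h1 : 1 ≤ k)
    (hk : k ≤ d) (t : ZMod p) :
    (g + C t * X ^ (d - k)).Monic ∧ (g + C t * X ^ (d - k)).natDegree = d := by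
  have h : (C t * X ^ (d - k)).natDegree < g.natDegree :=
    lt_of_le_of_lt (natDegree_C_mul_X_pow_le t _) (by omega)
  exact ⟨hg.add_of_left (degree_lt_degree h), (natDegree_add_eq_left_of_natDegree_lt h).trans hd⟩

theorem rev_wva {g : (ZMod p)[X]} {d n : ℕ} (hg : g.Monic) (hd : g.natDegree = d) (hn : n ≤ d) :
    ((g.aroots (KK p)).map fun a => 1 - C a * X).prod.coeff n =
      algebraMap _ _ (g.coeff (d - n)) := by
  have hc : (g.aroots (KK p)).card = d := IsAlgClosed.card_aroots_eq_natDegree.trans hd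
  rw [rev_coeff _ (hn.trans hc.ge), hc, aroots_def,
    prod_multiset_X_sub_C_of_monic_of_roots_card_eq (hg.map _)
      IsAlgClosed.card_roots_eq_natDegree, coeff_map]

theorem new_wva {E : Type} [CommRing E] {s s' : Multiset E} {k : ℕ}
    (h0 : (s.map fun a => 1 - C a * X).prod.coeff 0 = 1)
    (h : ∀ n < k, (s'.map fun a => 1 - C a * X).prod.coeff n =
      (s.map fun a => 1 - C a * X).prod.coeff n) (n : ℕ) : n < k →
    (s'.map fun a => a ^ (n + 1)).sum = (s.map fun a => a ^ (n + 1)).sum -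
      ((n + 1 : ℕ) : E) * ((s'.map fun a => 1 - C a * X).prod.coeff (n + 1) -
        (s.map fun a => 1 - C a * X).prod.coeff (n + 1)) := by
  induction n using Nat.strong_induction_on with
  | _ n ih =>
    intro hn
    have a1 := newton s (n + 1)
    have a2 := newton s' (n + 1)
    rw [sum_range_succ, Nat.add_sub_cancel, Nat.sub_self] at a1 a2
    rw [h 0 (by omega), sum_congr rfl fun j hj => by
      rw [ih j (mem_range.1 hj) ((mem_range.1 hj).trans hn),
        h (j + 1) (by have := mem_range.1 hj; omega), sub_self, mul_zero, sub_zero,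
        h (n - j) (by omega)]] at a2
    rw [h0] at a1 a2
    linear_combination a2 - a1

theorem sum_wva (f : (ZMod p)[X]) (s : Multiset (KK p)) : (s.map fun y => aeval y f).sum =
    ∑ j ∈ range (f.natDegree + 1), f.coeff j • (s.map fun y => y ^ j).sum := by
  induction s using Multiset.induction_on with
  | empty => simp
  | cons a s ih =>
    simp only [Multiset.map_cons, Multiset.sum_cons, ih, smul_add, sum_add_distrib]
    rw [aeval_eq_sum_range]

theorem psum_shift {g : (ZMod p)[X]} {d k : ℕ} (hg : g.Monic) (hd : g.natDegree = d) (h1 : 1 ≤ k)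
    (hk : k ≤ d) (t : ZMod p) :
    (∀ j, j < k → (((g + C t * X ^ (d - k)).aroots (KK p)).map fun y => y ^ j).sum =
      ((g.aroots (KK p)).map fun y => y ^ j).sum) ∧
    (((g + C t * X ^ (d - k)).aroots (KK p)).map fun y => y ^ k).sum =
      ((g.aroots (KK p)).map fun y => y ^ k).sum - algebraMap _ _ ((k : ZMod p) * t) := by
  obtain ⟨hg', hd'⟩ := mon_wva hg hd h1 hk t
  have hc : ∀ n ≤ k, (((g + C t * X ^ (d - k)).aroots (KK p)).map fun a => 1 - C a * X).prod.coeff n =
      ((g.aroots (KK p)).map fun a => 1 - C a * X).prod.coeff n +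
        if n = k then algebraMap _ _ t else 0 := by
    intro n hn
    rw [rev_wva hg' hd' (hn.trans hk), rev_wva hg hd (hn.trans hk), coeff_add, map_add,
      coeff_C_mul_X_pow]
    by_cases h : n = k
    · rw [if_pos h, if_pos (by rw [h])]
    · rw [if_neg h, if_neg (by omega), map_zero]
  have h0 : ((g.aroots (KK p)).map fun a => 1 - C a * X).prod.coeff 0 = 1 := by
    rw [rev_wva hg hd (Nat.zero_le d), Nat.sub_zero, ← hd, hg.coeff_natDegree, map_one]
  have H := new_wva (k := k) h0 fun n hn => by rw [hc n hn.le, if_neg hn.ne, add_zero]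
  refine ⟨fun j hj => ?_, ?_⟩
  · cases j with
    | zero =>
      simp only [pow_zero, Multiset.map_const', Multiset.sum_replicate,
        IsAlgClosed.card_aroots_eq_natDegree, hd, hd']
    | succ j =>
      rw [H j (by omega), hc _ hj.le, if_neg hj.ne, add_zero, sub_self, mul_zero, sub_zero]
  · obtain ⟨j, rfl⟩ := Nat.exists_eq_add_of_le' h1
    rw [H j (by omega), hc _ le_rfl, if_pos rfl, add_sub_cancel_left, map_mul, map_natCast]

theorem rs_shift {f g : (ZMod p)[X]} {d : ℕ} (hg : g.Monic) (hd : g.natDegree = d)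
    (h1 : 1 ≤ f.natDegree) (hk : f.natDegree ≤ d) (t : ZMod p) :
    rs f (g + C t * X ^ (d - f.natDegree)) =
      rs f g + algebraMap _ _ (-((f.natDegree : ZMod p) * f.leadingCoeff * t)) := by
  obtain ⟨a1, a2⟩ := psum_shift hg hd h1 hk t
  rw [rs, rs, sum_wva, sum_wva, sum_range_succ, sum_range_succ, a2,
    sum_congr rfl fun j hj => by rw [a1 j (mem_range.1 hj)]]
  simp only [Algebra.smul_def, map_neg, map_mul, leadingCoeff]
  ring

theorem cL_van {f : (ZMod p)[X]} (h1 : 1 ≤ f.natDegree) (h2 : f.natDegree < p) {d : ℕ}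
    (hd : f.natDegree ≤ d) : cL f d = 0 := by
  have hf : f ≠ 0 := ne_zero_of_natDegree_gt (n := 0) h1
  have ha : (f.natDegree : ZMod p) * f.leadingCoeff ≠ 0 := by
    refine mul_ne_zero ?_ (leadingCoeff_ne_zero.2 hf)
    rw [Ne, ZMod.natCast_eq_zero_iff]
    exact Nat.not_dvd_of_pos_of_lt h1 h2
  obtain ⟨t, ht⟩ : ∃ t, -((f.natDegree : ZMod p) * f.leadingCoeff * t) = 1 :=
    ⟨-((f.natDegree : ZMod p) * f.leadingCoeff)⁻¹, by rw [mul_neg, neg_neg, mul_inv_cancel₀ ha]⟩
  have hm : ∀ (t : ZMod p), ∀ g ∈ mon p d, g + C t * X ^ (d - f.natDegree) ∈ mon p d :=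
    fun t g hg => mem_mon.2 (mon_wva (mem_mon.1 hg).1 (mem_mon.1 hg).2 h1 hd t)
  have e : ∑ g ∈ mon p d, psiK (rs f (g + C t * X ^ (d - f.natDegree))) = cL f d :=
    sum_nbij' (fun g => g + C t * X ^ (d - f.natDegree))
      (fun g => g + C (-t) * X ^ (d - f.natDegree)) (hm t) (hm (-t))
      (fun g _ => by simp) (fun g _ => by simp) fun g _ => rfl
  have e2 : ∑ g ∈ mon p d, psiK (rs f (g + C t * X ^ (d - f.natDegree))) =
      cL f d * ZMod.stdAddChar (1 : ZMod p) := by
    rw [cL, sum_mul]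
    refine sum_congr rfl fun g hg => ?_
    rw [rs_shift (mem_mon.1 hg).1 (mem_mon.1 hg).2 h1 hd, ht,
      psiK_add (rs_fix f g) (by rw [map_one, one_pow]), psiK_map]
  have hψ : ZMod.stdAddChar (1 : ZMod p) ≠ 1 := fun h =>
    one_ne_zero (((ZMod.isPrimitive_stdAddChar p).zmod_char_eq_one_iff p 1).1 h)
  by_contra h0
  exact hψ (mul_left_cancel₀ h0 ((e2.symm.trans e).trans (mul_one _).symm))

theorem cL_zero (f : (ZMod p)[X]) : cL f 0 = 1 := by
  have e : mon p 0 = {1} := by
    ext g
    rw [mem_mon, mem_singleton]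
    exact ⟨fun h => h.1.natDegree_eq_zero.1 h.2, fun h => h ▸ ⟨monic_one, natDegree_one⟩⟩
  rw [cL, e, sum_singleton, rs, aroots_one, Multiset.map_zero, Multiset.sum_zero,
    ← map_zero (algebraMap (ZMod p) (KK p)), psiK_map, AddChar.map_zero_eq_one]

end Vale.Agent.P042.S
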