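import Vale.Agent.P042.W.AsB
import Vale.Agent.P042.W.Rec
import Vale.Agent.P042.W.Van

/-! # P042 W/Weil (TASK; helper names end with _wwe): the bound.
`Sr_bound`: every trace is `algebraMap t` (`trK_fix`, `fix_mem`); with `N t` the number of points of trace `t`: `Sr = ∑ t, N t ψ t` (`sum_fiberwise_of_maps_to`, `psiK_map`), `∑ t, N t = p ^ (2 r)` (`card_Fx`), `∑ t, ψ t = 0` (`AddChar.sum_eq_zero_of_ne_one`, `sum_mulShift`), `N t ≤ U` (`as_count`), so `‖Sr‖ = ‖∑ (N t - U) ψ t‖ ≤ p U - p ^ (2 r)`; model: K/Char.lean.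
`weil`: `L = ∑ d < k, monomial d (cL f d)` has `coeff d = cL f d` for all `d` (`cL_van`), `fac_one` (`cL_zero`), `card s ≤ k`; strong induction with `cL_rec`, `newton` gives `Sr f (j + 1) = -(power sum (j + 1))`; `pow_bound` for `s.map (· ^ 2)` and `B = p`; `Sr_one`, `norm_multiset_sum_le`, `Real.le_sqrt`. -/

namespace Vale.Agent.P042.S

open Finset Polynomial

variable {p : ℕ} [Fact p.Prime]

theorem norm_wwe (N : ZMod p → ℕ) {B : ℝ} (h : ∀ t, (N t : ℝ) ≤ B) :
    ‖∑ t, (N t : ℂ) * ZMod.stdAddChar t‖ ≤ p * B - (∑ t, N t : ℕ) := by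
  have h0 : ∑ t : ZMod p, ZMod.stdAddChar t = 0 := by
    have h1 := AddChar.sum_mulShift 1 (ZMod.isPrimitive_stdAddChar p)
    simpa using h1
  have e : ∑ t, (N t : ℂ) * ZMod.stdAddChar t =
      -∑ t : ZMod p, ((B - N t : ℝ) : ℂ) * ZMod.stdAddChar t := by
    simp only [Complex.ofReal_sub, Complex.ofReal_natCast, sub_mul, sum_sub_distrib, ← mul_sum,
      h0, mul_zero, zero_sub, neg_neg]
  rw [e, norm_neg]
  refine (norm_sum_le _ _).trans (le_of_eq ?_)
  have e2 : ∀ t ∈ (univ : Finset (ZMod p)), ‖((B - N t : ℝ) : ℂ) * ZMod.stdAddChar t‖ = B - N t :=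
    fun t _ => by
      rw [norm_mul, AddChar.norm_apply, mul_one, Complex.norm_real,
        Real.norm_of_nonneg (sub_nonneg.2 (h t))]
  rw [sum_congr rfl e2, sum_sub_distrib, sum_const, card_univ, ZMod.card, nsmul_eq_mul,
    Nat.cast_sum]

theorem rec_wwe {a c : ℕ → ℂ} (h0 : c 0 = 1)
    (h : ∀ n, ∑ j ∈ range n, a j * c (n - 1 - j) = 0) (j : ℕ) : a j = 0 := by
  induction j using Nat.strong_induction_on with
  | _ j ih =>
    have h1 := h (j + 1)
    rw [sum_range_succ, sum_eq_zero fun i hi => by rw [ih i (mem_range.1 hi), zero_mul],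
      show j + 1 - 1 - j = 0 by omega, h0, zero_add, mul_one] at h1
    exact h1

theorem Sr_bound {f : (ZMod p)[X]} (h1 : 1 ≤ f.natDegree) (h2 : f.natDegree < p) {r : ℕ}
    (hr : 1 ≤ r) : ‖Sr f (2 * r)‖ ≤ (p * (2 * f.natDegree + 2) : ℝ) * (p : ℝ) ^ r := by
  classical
  have hr' : 0 < 2 * r := by omega
  have hk : ∀ x : KK p, ∃ t : ZMod p, x ∈ Fx p (2 * r) →
      algebraMap _ _ t = trK (2 * r) (aeval x f) := fun x => by
    by_cases hx : x ∈ Fx p (2 * r)
    · obtain ⟨t, ht⟩ := fix_mem (trK_fix f ((mem_Fx hr').1 hx))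
      exact ⟨t, fun _ => ht⟩
    · exact ⟨0, fun h => absurd h hx⟩
  choose k hk using hk
  have hmap : ∀ x ∈ Fx p (2 * r), k x ∈ (univ : Finset (ZMod p)) := fun x _ => mem_univ _
  have e1 : Sr f (2 * r) =
      ∑ t, (((Fx p (2 * r)).filter fun x => k x = t).card : ℂ) * ZMod.stdAddChar t := by
    rw [Sr, ← sum_fiberwise_of_maps_to hmap]
    refine sum_congr rfl fun t _ => ?_
    rw [← nsmul_eq_mul, ← sum_const]
    refine sum_congr rfl fun x hx => ?_
    rw [mem_filter] at hx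
    rw [← hk x hx.1, psiK_map, hx.2]
  have hN : ∀ t, (((Fx p (2 * r)).filter fun x => k x = t).card : ℝ) ≤
      ((p ^ (2 * r - 1) + (2 * f.natDegree + 2) * p ^ r : ℕ) : ℝ) := fun t => by
    refine Nat.cast_le.2 ((card_le_card fun x hx => ?_).trans
      (as_count h1 h2 hr (algebraMap _ _ t)))
    simp only [mem_filter] at hx ⊢
    exact ⟨hx.1, by rw [← hk x hx.1, hx.2]⟩
  rw [e1]
  refine (norm_wwe _ hN).trans (le_of_eq ?_)
  rw [← card_eq_sum_card_fiberwise hmap, card_Fx hr']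
  have h3 : (p : ℝ) ^ (2 * r) = p * p ^ (2 * r - 1) := by
    rw [← pow_succ', Nat.sub_add_cancel hr']
  push_cast
  rw [h3]
  ring

theorem weil {f : (ZMod p)[X]} (h1 : 1 ≤ f.natDegree) (h2 : f.natDegree < p) :
    ‖∑ t : ZMod p, ZMod.stdAddChar (f.eval t)‖ ≤ f.natDegree * √p := by
  have hp : (0 : ℝ) < p := Nat.cast_pos.2 (Fact.out : p.Prime).pos
  have hc : ∀ d, (∑ i ∈ range f.natDegree, monomial i (cL f i)).coeff d = cL f d := fun d => by
    simp only [finsetSum_coeff, coeff_monomial, sum_ite_eq', mem_range]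
    split_ifs with h
    · rfl
    · exact (cL_van h1 h2 (not_lt.1 h)).symm
  obtain ⟨s, hs, e⟩ := fac_one ((hc 0).trans (cL_zero f))
  have hd : s.card ≤ f.natDegree := hs.trans (natDegree_le_iff_coeff_eq_zero.2 fun d h => by
    rw [hc, cL_van h1 h2 h.le])
  have h3 : ∀ j, Sr f (j + 1) + (s.map fun a => a ^ (j + 1)).sum = 0 := by
    refine rec_wwe (cL_zero f) fun n => ?_
    have h4 := newton s n
    simp only [← e, hc] at h4
    simp only [add_mul, sum_add_distrib]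
    rw [← cL_rec, h4, neg_add_cancel]
  have h4 : ∀ ω ∈ s.map fun a => a ^ 2, ‖ω‖ ≤ p := by
    refine pow_bound _ (C₀ := p * (2 * f.natDegree + 2)) hp fun r hr => ?_
    have h5 := h3 (2 * r - 1)
    rw [show 2 * r - 1 + 1 = 2 * r by omega, add_eq_zero_iff_neg_eq] at h5
    simp only [Multiset.map_map, Function.comp_def, ← pow_mul]
    rw [← h5, norm_neg]
    exact Sr_bound h1 h2 hr
  have h5 := h3 0
  simp only [zero_add, pow_one, Multiset.map_id', add_eq_zero_iff_eq_neg] at h5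
  rw [← Sr_one, h5, norm_neg]
  refine (norm_multiset_sum_le s).trans ((Multiset.sum_le_card_nsmul _ (√p) fun x hx => ?_).trans ?_)
  · obtain ⟨ω, hω, rfl⟩ := Multiset.mem_map.1 hx
    refine Real.le_sqrt_of_sq_le ?_
    rw [← norm_pow]
    exact h4 _ (Multiset.mem_map_of_mem _ hω)
  · rw [Multiset.card_map, nsmul_eq_mul]
    exact mul_le_mul_of_nonneg_right (Nat.cast_le.2 hd) (Real.sqrt_nonneg _)

end Vale.Agent.P042.S
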